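import Vale.Agent.P181.DGx.H514.Lit

set_option autoImplicit false

/-!
# P181, DG, D4, block [R]: restitution
-/

open MvPolynomial

namespace Vale.Agent.P181.DG4r.H909

open Vale.Agent.P181.DG.H514

/-- A vector of naturals with sum one is a unit vector. -/
lemma exists_row {m : ℕ} (u : Fin m → ℕ) (h : ∑ i, u i = 1) :
    ∃ r, ∀ i, u i = if r = i then 1 else 0 := by
  obtain ⟨r, hr⟩ : ∃ r, u r ≠ 0 := by
    by_contra hn
    push Not at hn
    rw [Finset.sum_eq_zero fun i _ => hn i] at h
    exact zero_ne_one h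
  refine ⟨r, fun i => ?_⟩
  have h1 : u r + ∑ x ∈ Finset.univ.erase r, u x = 1 := by
    rw [Finset.add_sum_erase _ _ (Finset.mem_univ r)]
    exact h
  split_ifs with h2
  · rw [← h2]
    omega
  · have h3 : u i ≤ ∑ x ∈ Finset.univ.erase r, u x :=
      Finset.single_le_sum (f := u) (fun _ _ => Nat.zero_le _)
        (Finset.mem_erase.2 ⟨fun h4 => h2 h4.symm, Finset.mem_univ i⟩)
    omega

/-- Two finite families with the same number of occurrences of each value. -/
lemma exists_equiv_card {τ γ : Type} [Fintype τ] [DecidableEq γ] (g g' : τ → γ)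
    (h : ∀ c, (Finset.univ.filter fun x => g x = c).card
      = (Finset.univ.filter fun x => g' x = c).card) :
    ∃ e : τ ≃ τ, ∀ x, g' (e x) = g x := by
  have hc : ∀ c, Nonempty ({x // g x = c} ≃ {x // g' x = c}) := by
    intro c
    refine ⟨Fintype.equivOfCardEq ?_⟩
    rw [Fintype.card_subtype, Fintype.card_subtype]
    exact h c
  let φ := fun n => Classical.choice (hc n)
  let e : τ ≃ τ := (Equiv.sigmaFiberEquiv g).symm.trans
    ((Equiv.sigmaCongrRight φ).trans (Equiv.sigmaFiberEquiv g'))
  refine ⟨e, fun x => ?_⟩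
  exact (φ (g x) ⟨x, rfl⟩).2

/-- The values of `mapDomain` on finite types. -/
lemma mapDomain_eq_sum {α β : Type} [Fintype α] [DecidableEq β] (f : α → β) (v : α →₀ ℕ)
    (w : β) : Finsupp.mapDomain f v w = ∑ q, if f q = w then v q else 0 := by
  rw [Finsupp.mapDomain, Finsupp.sum_fintype _ _ fun _ => Finsupp.single_zero _,
    Finsupp.finsetSum_apply]
  exact Finset.sum_congr rfl fun q _ => Finsupp.single_apply

/-- The coefficients of `rename`. -/
lemma coeff_rename_sum {α β : Type} [DecidableEq β] (f : α → β) (p : MvPolynomial α ℂ)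
    (w : β →₀ ℕ) : coeff w (rename f p)
      = ∑ v ∈ p.support, if Finsupp.mapDomain f v = w then coeff v p else 0 := by
  conv_lhs => rw [p.as_sum]
  rw [map_sum, coeff_sum]
  refine Finset.sum_congr rfl fun v _ => ?_
  rw [rename_monomial, coeff_monomial]

/-- **[R]** Restitution. -/
theorem restStmt : RestStmt := by
  intro m B B' _ _ κ M z hz hinj p hdeg hsym hren
  classical
  by_contra hp
  obtain ⟨v0, hv0⟩ : ∃ v0, coeff v0 p ≠ 0 := by
    by_contra h
    push Not at h
    exact hp (MvPolynomial.ext _ _ fun v => by rw [h v, coeff_zero])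
  have key : ∀ v, coeff v p ≠ 0 →
      Finsupp.mapDomain (fun q : Fin m × B => (q.1, κ q.2)) v
        = Finsupp.mapDomain (fun q : Fin m × B => (q.1, κ q.2)) v0 →
      coeff v p = coeff v0 p := by
    intro v hv heq
    -- values at the columns
    have hval : ∀ (u : Fin m × B →₀ ℕ) (i : Fin m) (w : B'),
        Finsupp.mapDomain (fun q : Fin m × B => (q.1, κ q.2)) u (i, w)
          = ∑ b, if κ b = w then u (i, b) else 0 := by
      intro u i w
      rw [mapDomain_eq_sum, Fintype.sum_prod_type, Finset.sum_eq_single i]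
      · refine Finset.sum_congr rfl fun b _ => ?_
        by_cases h : κ b = w
        · rw [if_pos h, if_pos (by rw [h])]
        · rw [if_neg h, if_neg fun h1 => h (congrArg Prod.snd h1)]
      · intro j _ hj
        refine Finset.sum_eq_zero fun b _ => ?_
        rw [if_neg fun h1 => hj (congrArg Prod.fst h1)]
      · intro h
        exact absurd (Finset.mem_univ i) h
    have hout : ∀ b, b ∉ M → ∀ i, v (i, b) = v0 (i, b) := by
      intro b hb i
      have h1 : ∀ u : Fin m × B →₀ ℕ,
          Finsupp.mapDomain (fun q : Fin m × B => (q.1, κ q.2)) u (i, κ b) = u (i, b) := by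
        intro u
        rw [hval, Finset.sum_eq_single b]
        · rw [if_pos rfl]
        · intro b' _ hb'
          rw [if_neg]
          intro h2
          exact hb' (hinj b b' hb h2.symm).symm
        · intro h
          exact absurd (Finset.mem_univ b) h
      rw [← h1 v, heq, h1]
    have hin : ∀ i, ∑ b : {b // b ∈ M}, v (i, b.1) = ∑ b : {b // b ∈ M}, v0 (i, b.1) := by
      intro i
      have h1 : ∀ u : Fin m × B →₀ ℕ,
          Finsupp.mapDomain (fun q : Fin m × B => (q.1, κ q.2)) u (i, z)
            = ∑ b : {b // b ∈ M}, u (i, b.1) := by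
        intro u
        rw [hval, ← Finset.sum_filter]
        exact (Finset.sum_subtype (Finset.univ.filter fun b => κ b = z) (p := fun b => b ∈ M)
          (fun b => by rw [Finset.mem_filter, hz]; exact ⟨fun h => h.2, fun h =>
            ⟨Finset.mem_univ _, h⟩⟩) fun b => u (i, b))
      rw [← h1 v, heq, h1]
    -- rows
    choose r hr using fun b : {b // b ∈ M} => exists_row (fun i => v (i, b.1))
      (hdeg v hv b.1 b.2)
    choose r0 hr0 using fun b : {b // b ∈ M} => exists_row (fun i => v0 (i, b.1))
      (hdeg v0 hv0 b.1 b.2)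
    obtain ⟨e, he⟩ := exists_equiv_card r r0 (by
      intro i
      have h1 := hin i
      rw [Finset.sum_congr rfl fun b _ => hr b i, Finset.sum_congr rfl fun b _ => hr0 b i] at h1
      rw [Finset.card_filter, Finset.card_filter]
      exact h1)
    let E : Equiv.Perm B := Equiv.Perm.ofSubtype e
    have hE1 : ∀ b (hb : b ∈ M), E b = e ⟨b, hb⟩ := fun b hb =>
      Equiv.Perm.ofSubtype_apply_of_mem e hb
    have hE2 : ∀ b, b ∉ M → E b = b := fun b hb =>
      Equiv.Perm.ofSubtype_apply_of_not_mem e hb
    have hv0E : ∀ i b, v0 (i, E b) = v (i, b) := by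
      intro i b
      by_cases hb : b ∈ M
      · rw [hE1 b hb]
        have h1 := hr0 (e ⟨b, hb⟩) i
        have h2 := hr ⟨b, hb⟩ i
        rw [he] at h1
        exact h1.trans h2.symm
      · rw [hE2 b hb]
        exact (hout b hb i).symm
    have hinjE : Function.Injective (fun q : Fin m × B => (q.1, E q.2)) := by
      rintro ⟨a, b⟩ ⟨c, d⟩ h
      have h1 : a = c := congrArg Prod.fst h
      have h2 : E b = E d := congrArg Prod.snd h
      rw [h1, E.injective h2]
    have h3 : Finsupp.mapDomain (fun q : Fin m × B => (q.1, E q.2)) v = v0 := by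
      ext ⟨i, b⟩
      obtain ⟨c, rfl⟩ := E.surjective b
      rw [hv0E]
      exact Finsupp.mapDomain_apply hinjE v (i, c)
    have h4 := coeff_rename_mapDomain _ hinjE p v
    rw [h3, hsym E hE2] at h4
    exact h4.symm
  have h1 := coeff_rename_sum (fun q : Fin m × B => (q.1, κ q.2)) p
    (Finsupp.mapDomain (fun q : Fin m × B => (q.1, κ q.2)) v0)
  rw [hren, coeff_zero, ← Finset.sum_filter] at h1
  rw [Finset.sum_congr rfl fun v hv => key v (mem_support_iff.1 (Finset.mem_filter.1 hv).1)
    (Finset.mem_filter.1 hv).2, Finset.sum_const, nsmul_eq_mul] at h1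
  have h2 : v0 ∈ p.support.filter fun v =>
      Finsupp.mapDomain (fun q : Fin m × B => (q.1, κ q.2)) v
        = Finsupp.mapDomain (fun q : Fin m × B => (q.1, κ q.2)) v0 :=
    Finset.mem_filter.2 ⟨mem_support_iff.2 hv0, rfl⟩
  rcases mul_eq_zero.1 h1.symm with h3 | h3
  · have h4 := Finset.card_pos.2 ⟨v0, h2⟩
    have h5 := Nat.cast_eq_zero.1 h3
    omega
  · exact hv0 h3

end Vale.Agent.P181.DG4r.H909
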